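import Vale.Agent.Lib.P154R.Assemble

/-!
# The tables of the certificate of the potential
-/

namespace Vale.Agent.Lib.P154R

/-- The integer scale. -/
def tMD : ℤ := 3072000000
/-- The symmetric columns. -/
def tMSym : List ((ℕ × ℕ × ℕ × ℕ) × ℤ) := [
  ((1,0,0,0),(-256000000)),
  ((1,1,0,0),19877888000),
  ((1,1,1,0),(-314605568000)),
  ((1,1,1,1),1294204928000),
  ((2,1,0,0),(-314605568000)),
  ((2,1,1,0),6471024640000),
  ((2,1,1,1),(-26169311232000)),
  ((2,2,0,0),1294204928000),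
  ((2,2,1,0),(-34892414976000)),
  ((2,2,1,1),131598385152000),
  ((2,2,2,0),40491810816000),
  ((2,2,2,1),(-142690222080000)),
  ((3,1,0,0),1294204928000),
  ((3,1,1,0),(-20353908736000)),
  ((3,1,1,1),53989081088000),
  ((3,2,0,0),(-8723103744000)),
  ((3,2,1,0),148469972992000),
  ((3,2,1,1),(-269525975040000)),
  ((3,2,2,0),(-126835752960000)),
  ((3,3,0,0),10122952704000),
  ((3,3,1,0),(-79272345600000)),
  ((4,1,0,0),(-2907701248000)),
  ((4,1,1,0),30368858112000),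
  ((4,1,1,1),(-39636172800000)),
  ((4,2,0,0),13497270272000),
  ((4,2,1,0),(-110981283840000)),
  ((4,3,0,0),(-15854469120000)),
  ((5,1,0,0),3374317568000),
  ((5,1,1,0),(-17439916032000)),
  ((5,2,0,0),(-7927234560000)),
  ((6,1,0,0),(-1585446912000))
]
/-- The bilinear columns. -/
def tMBil : List ((ℕ × ℕ × ℕ) × List ((ℕ × ℕ × ℕ) × ℤ)) := [
  ((0,0,0),[((1,0,0),768000000)]),
  ((0,0,1),[((0,0,1),(-63918720)),((0,1,0),54856320),((0,2,0),(-433440)),((1,0,0),23989248),((1,0,1),1925280),((1,1,0),8850240),((2,0,0),21506208),((3,0,0),(-1635480))]),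
  ((0,1,0),[((0,0,1),56216448),((0,1,0),32000000),((0,2,0),2042928),((1,0,0),(-128000000)),((1,0,1),(-1101936)),((1,1,0),(-12629088)),((2,0,0),(-14039680)),((3,0,0),836676)]),
  ((0,2,0),[((0,0,1),(-402480)),((0,1,0),1853520),((1,0,0),313728),((2,0,0),(-20172))]),
  ((1,0,0),[((0,0,0),768000000),((0,0,1),22726656),((0,1,0),(-128000000)),((0,2,0),297216),((1,0,1),(-1320192)),((1,1,0),(-6068736)),((2,0,0),10359040),((3,0,0),1121472)]),
  ((1,0,1),[((0,0,1),1787760),((0,1,0),(-948240)),((1,0,0),(-1393536)),((2,0,0),(-930276))]),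
  ((1,1,0),[((0,0,1),8218080),((0,1,0),(-12709920)),((1,0,0),(-6405888)),((2,0,0),(-3107208))]),
  ((2,0,0),[((0,0,1),21813408),((0,1,0),(-13699200)),((0,2,0),(-30012)),((1,0,0),10040320),((1,0,1),(-982836)),((1,1,0),(-3459048)),((2,0,0),(-9184320)),((3,0,0),848811)]),
  ((3,0,0),[((0,0,1),(-1518660)),((0,1,0),905340),((1,0,0),1183776),((2,0,0),776271)])
]

/-- The columns. -/
def csM : List (Ex × Ex) := csOf 12 tMSym tMBil

/-- A one sided table. -/
def gPT : List ((ℕ × ℕ × ℕ) × ℤ) := [((0,0,1),(-5760)), ((0,1,0),2880), ((0,2,0),(-300)), ((1,0,0),12352), ((1,0,1),336), ((1,1,0),2490), ((2,0,0),(-870)), ((3,0,0),(-273))]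

/-- A one sided table. -/
def gET : List ((ℕ × ℕ × ℕ) × ℤ) := [((0,0,1),(-780)), ((0,1,0),(-780)), ((1,0,0),608), ((2,0,0),573)]

/-- A one sided table. -/
def hPT : List ((ℕ × ℕ × ℕ) × ℤ) := [((0,0,1),(-5664)), ((0,1,0),1952), ((0,2,0),(-282)), ((1,0,0),12544), ((1,0,1),342), ((1,1,0),2616), ((2,0,0),(-834)), ((3,0,0),(-303))]

/-- A one sided table. -/
def hET : List ((ℕ × ℕ × ℕ) × ℤ) := [((0,0,1),(-840)), ((0,1,0),(-692)), ((1,0,0),576), ((2,0,0),593)]


end Vale.Agent.Lib.P154R
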